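import Vale.Agent.P098.Bdl.B30
import Vale.Agent.P098.H709.Defs

/-! # Minimizers with smooth cross-section are stable -/

set_option linter.all false

open MeasureTheory Set Metric Filter
open scoped ContDiff RealInnerProductSpace Topology NNReal

namespace Vale.Agent.P098.H932

open Vale.Agent.P098

variable {d : ℕ}

/-- Minimizers satisfy the stability inequality. -/
theorem isStable_of_min {u U : E d → ℝ} {K : ℝ≥0} (hm : MinL K u) (h : H709.IsSmoothCone u U) :
    H709.IsStable u U := by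
  have hK := hm.lip
  have h0 := hm.nonneg
  have hmin := hm.min
  obtain ⟨V, hV, hN, hUsm⟩ := h.smooth
  have hU : LocalExt u (V \ {0}) U := ⟨hV.sdiff isClosed_singleton, hUsm.mono sdiff_subset,
    fun x _ hx => h.agree x hx, fun x hx hxf => h.boundary x hxf hx.2⟩
  replace hN : closure {y | 0 < u y} \ {0} ⊆ V \ {0} := fun x hx => ⟨hN hx, hx.2⟩
  clear hUsm
  set N : Set (E d) := V \ {0} with hNdef
  intro φ F hφ' hφn hφc hφ0 hF' hFc hF0 hb
  have hφ : ContDiff ℝ 1 φ := hφ'.of_le (by simp only [WithTop.one_le_coe, le_top])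
  have hF : ContDiff ℝ 1 F := hF'.of_le (by simp only [WithTop.one_le_coe, le_top])
  have hc := hK.continuous
  have ho : IsOpen {y | 0 < u y} := isOpen_lt continuous_const hc
  -- the compact set
  have hKc : IsCompact (closure {y | 0 < u y} ∩ (tsupport φ ∪ tsupport F)) :=
    (hφc.isCompact.union hFc.isCompact).inter_left isClosed_closure
  have hK0 : closure {y | 0 < u y} ∩ (tsupport φ ∪ tsupport F) ⊆ N \ {0} := by
    rintro x ⟨hx1, hx2⟩
    have hx0 : x ≠ 0 := by
      rintro rfl
      rcases hx2 with h | h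
      · exact hφ0 h
      · exact hF0 h
    exact ⟨hN ⟨hx1, hx0⟩, hx0⟩
  have hNo : IsOpen (N \ {0}) := hU.isOpen.sdiff isClosed_singleton
  obtain ⟨χ₁, h₁s, -, h₁N, h₁1, h₁0⟩ := C2.exists_cutoff hKc hNo hK0
  set N' : Set (E d) := interior {x | χ₁ x = 1} with hN'
  have hN'o : IsOpen N' := isOpen_interior
  have hKN' : closure {y | 0 < u y} ∩ (tsupport φ ∪ tsupport F) ⊆ N' :=
    subset_interior_iff_mem_nhdsSet.mpr h₁1
  have hN'1 : ∀ x ∈ N', ∀ᶠ y in 𝓝 x, χ₁ y = 1 := by
    intro x hx
    filter_upwards [hN'o.mem_nhds hx] with y hy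
    have h : y ∈ {x | χ₁ x = 1} := interior_subset hy
    exact h
  have hN'N : N' ⊆ N \ {0} := by
    intro x hx
    refine h₁N (subset_tsupport _ ?_)
    have h : x ∈ {x | χ₁ x = 1} := interior_subset hx
    have h' : χ₁ x = 1 := h
    rw [Function.mem_support, h']
    exact one_ne_zero
  obtain ⟨χ, hχs, hχc, hχN, hχ1, hχ0⟩ := C2.exists_cutoff hKc hN'o hKN'
  have heq : ∀ x ∈ N', (fun y => χ₁ y • U y) =ᶠ[𝓝 x] U := by
    intro x hx
    filter_upwards [hN'1 x hx] with y hy
    rw [hy, one_smul]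
  have hUs : ContDiff ℝ ∞ (fun x => χ₁ x • U x) :=
    C2.contDiff_smul hNo h₁s (hU.smooth.mono sdiff_subset) h₁N
  have hU' : LocalExt u N' (fun x => χ₁ x • U x) := by
    refine ⟨hN'o, hUs.contDiffOn, ?_, ?_⟩
    · intro x hx hux
      have h5 : χ₁ x • U x = U x := (heq x hx).self_of_nhds
      show χ₁ x • U x = u x
      rw [h5]
      exact hU.eq x (hN'N hx).1 hux
    · intro x hx hxf
      rw [(heq x hx).gradient_eq]
      exact hU.grad x (hN'N hx).1 hxf
  have hχφs : ContDiff ℝ 1 (fun x => χ x * φ x) :=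
    (hχs.of_le (by simp only [WithTop.one_le_coe, le_top])).mul hφ
  have hχFs : ContDiff ℝ 1 (fun x => χ x • F x) :=
    (hχs.of_le (by simp only [WithTop.one_le_coe, le_top])).smul hF
  have hs1 : tsupport (fun x => χ x * φ x) ⊆ tsupport χ := tsupport_mul_subset_left
  have hs2 : tsupport (fun x => χ x • F x) ⊆ tsupport χ := tsupport_smul_subset_left χ F
  have hs3 : tsupport (fun x => χ x * φ x) ⊆ tsupport φ := tsupport_mul_subset_right
  have hs4 : tsupport (fun x => χ x • F x) ⊆ tsupport F := tsupport_smul_subset_right χ F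
  have hone : ∀ x ∈ closure {y | 0 < u y} ∩ (tsupport φ ∪ tsupport F), χ x = 1 := fun x hx =>
    hχ1.self_of_nhdsSet x hx
  have key := stability_global hK h0 hmin hU' hUs hχφs
    (fun x => mul_nonneg (hχ0 x) (hφn x)) (hχc.of_isClosed_subset (isClosed_tsupport _) hs1)
    (hs1.trans hχN) hχFs (hχc.of_isClosed_subset (isClosed_tsupport _) hs2) (hs2.trans hχN) (by
      intro x hx hxf
      rw [(heq x hx).gradient_eq, C2.curv_congr (heq x hx)]
      by_cases hxs : x ∈ tsupport φ ∪ tsupport F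
      · have h1 := hone x ⟨frontier_subset_closure hxf, hxs⟩
        have h2 := hb x hxf (hN'N hx).2
        have h3 : -⟪F x, gradient U x⟫ = curv U x * φ x ^ 2 := h2
        simp only [h1, one_smul, one_mul]
        linarith only [h3]
      · have h1 : φ x = 0 := image_eq_zero_of_notMem_tsupport fun h => hxs (Or.inl h)
        have h2 : F x = 0 := image_eq_zero_of_notMem_tsupport fun h => hxs (Or.inr h)
        simp [h1, h2])
  have e1 : ∫ x in {y | 0 < u y}, divg (fun x => χ x • F x) x =
      ∫ x in {y | 0 < u y}, ∑ i, fderiv ℝ F x (EuclideanSpace.single i (1 : ℝ)) i := by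
    refine setIntegral_congr_fun ho.measurableSet fun x hx => ?_
    by_cases hxs : x ∈ tsupport F
    · have hxK : x ∈ closure {y | 0 < u y} ∩ (tsupport φ ∪ tsupport F) :=
        ⟨subset_closure hx, Or.inr hxs⟩
      have h3 : ∀ᶠ y in 𝓝 x, χ y = 1 := hχ1.filter_mono (nhds_le_nhdsSet hxK)
      have h2 : (fun x => χ x • F x) =ᶠ[𝓝 x] F := by
        filter_upwards [h3] with y hy
        rw [hy, one_smul]
      show divg (fun x => χ x • F x) x = divg F x
      exact C2.divg_congr h2
    · have h2 : (fun x => χ x • F x) =ᶠ[𝓝 x] F := by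
        have h4 : F =ᶠ[𝓝 x] fun _ => 0 := notMem_tsupport_iff_eventuallyEq.mp hxs
        filter_upwards [h4] with y hy
        rw [hy, smul_zero]
      show divg (fun x => χ x • F x) x = divg F x
      exact C2.divg_congr h2
  have e2 : ∫ x in {y | 0 < u y}, ‖fderiv ℝ (fun x => χ x * φ x) x‖ ^ 2 =
      ∫ x in {y | 0 < u y}, ‖gradient φ x‖ ^ 2 := by
    refine setIntegral_congr_fun ho.measurableSet fun x hx => ?_
    have h2 : (fun x => χ x * φ x) =ᶠ[𝓝 x] φ := by
      by_cases hxs : x ∈ tsupport φ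
      · have hxK : x ∈ closure {y | 0 < u y} ∩ (tsupport φ ∪ tsupport F) :=
          ⟨subset_closure hx, Or.inl hxs⟩
        have h3 : ∀ᶠ y in 𝓝 x, χ y = 1 := hχ1.filter_mono (nhds_le_nhdsSet hxK)
        filter_upwards [h3] with y hy
        rw [hy, one_mul]
      · have h4 : φ =ᶠ[𝓝 x] fun _ => 0 := notMem_tsupport_iff_eventuallyEq.mp hxs
        filter_upwards [h4] with y hy
        rw [hy, mul_zero]
    show ‖fderiv ℝ (fun x => χ x * φ x) x‖ ^ 2 = ‖gradient φ x‖ ^ 2
    rw [h2.fderiv_eq]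
    have : ‖gradient φ x‖ = ‖fderiv ℝ φ x‖ := by
      unfold gradient
      exact (InnerProductSpace.toDual ℝ (E d)).symm.norm_map _
    rw [this]
  rw [e1, e2] at key
  exact key

end Vale.Agent.P098.H932
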